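import Vale.Agent.P141.H677.SkelTF2

/-!
# P141, line (A), flow part: the term of scale `0`

A bundle whose scalar families vanish at the time `0` has no term of scale `0`:
`partF_f0 : (D → A x0 0 = 0) → PartF D f0`.
-/

namespace Vale.Agent.P141.H25

open Finset Matrix
open Vale.Agent.P141.PL (Pt)
open Vale.Agent.P141.PL.H315 (Tri)
open Vale.Agent.P141.H677.Sk
open Vale.Agent.P141.H401 (Bun PartF PartX)

noncomputable section

/-- **No term of scale `0`.** -/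
theorem q0_zero {ι : Type} [Fintype ι] (K : ℕ) (M : Pt) (R : Slt ι) {A : FamA} (b C : FamV ι)
    (h : ∀ x0 z y, A x0 0 z y = 0) : q0 K M R A b C = 0 := by
  unfold q0
  refine sum_eq_zero fun t _ => sum_eq_zero fun x0 _ => ?_
  have e : H677.GA (A x0) (b x0) (C x0) (R x0) 0 0 = fun _ => 0 := by
    funext y
    unfold H677.GA
    rw [h, zero_mul]
  rw [e]
  unfold H352.In
  simp

/-- **The leaf `f0`.** -/
theorem partF_f0 {D : Bun}
    (h : ∀ (ι : Type) [Fintype ι] [DecidableEq ι] (p : H401.Num) (n : ℕ) (ez : ℝ)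
      (F1 F2 F3 : ℕ → Pt → ℝ) (o : ℤ) (K : ℕ) (x : Pt) (s r : ℝ) (U : Tri) (g : ℤ → ℤ → ℝ)
      (u v : ℤ → ℤ → ι → ℝ) (A : FamA) (b C : FamV ι),
      D ι p n ez F1 F2 F3 o K x s r U g u v A b C → ∀ x0 z y, A x0 0 z y = 0) : PartF D f0 := by
  intro a _ _
  refine ⟨1, one_pos, fun e0 _ _ => ⟨1, one_pos, fun k8 _ _ => ⟨1, one_pos, fun k3 _ _ => ?_⟩⟩⟩
  refine ⟨1, 1, 1, 1, one_pos, one_pos, one_pos, one_pos, fun c _ _ d _ _ Kt e cP L _ _ _ _ CD _ =>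
    ⟨0, le_rfl, ?_⟩⟩
  intro t _ _ n ez F1 F2 F3 _ _ _ o _ K _ x ι _ _ s r U g u v _ _ _ A b C hD sg _
  have h0 := h ι _ n ez F1 F2 F3 o K x s r U g u v A b C hD
  have e := q0_zero K (PL.cx K x) (sl (H401.Num.al ⟨a, e0, k8, k3, c, d, Kt, e, cP, L, CD, t⟩ U K) o K
    (PL.cx K x) sg (H401.Num.lam ⟨a, e0, k8, k3, c, d, Kt, e, cP, L, CD, t⟩ s r) u) b C h0
  refine (le_of_eq e).trans (le_of_eq ?_)
  ring

end

end Vale.Agent.P141.H25
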